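import Mathlib

/-!
P129 helper: in any infinite-dimensional normed space, for every `N` there are `N` continuous
functionals of norm in `[1/4, 1]` whose values at each `x` have `ℓ²` norm at most `‖x‖`.
(A weak Dvoretzky-Rogers lemma, proved by maximising a determinant.)
-/

noncomputable section

open scoped InnerProductSpace

namespace Vale.Agent.P129

variable {𝕜 : Type*} [RCLike 𝕜]

section DR

variable {E Y : Type*} [NormedAddCommGroup E] [InnerProductSpace 𝕜 E] [FiniteDimensional 𝕜 E]
  [NormedAddCommGroup Y] [NormedSpace 𝕜 Y]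

/-- A norm one map of largest determinant cannot be small on a subspace of at least half the
dimension; inductively this gives many orthonormal vectors with large images. -/
lemma exists_orthonormal_large (T : E →L[𝕜] Y) (hT : ‖T‖ ≤ 1)
    (hmax : ∀ B : E →L[𝕜] E, ‖T.comp B‖ ≤ 1 → ‖LinearMap.det (B : E →ₗ[𝕜] E)‖ ≤ 1)
    {N : ℕ} (hN : Module.finrank 𝕜 E = 2 * N) :
    ∀ j ≤ N, ∃ s : Finset E, s.card = j ∧ Orthonormal 𝕜 ((↑) : {x // x ∈ s} → E) ∧
      ∀ e ∈ s, 1 / 4 ≤ ‖T e‖ := by
  classical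
  intro j
  induction j with
  | zero =>
    intro _
    refine ⟨∅, rfl, ?_, by simp⟩
    constructor
    · intro i; exact absurd i.2 (Finset.notMem_empty _)
    · intro i; exact absurd i.2 (Finset.notMem_empty _)
  | succ j ih =>
    intro hj
    obtain ⟨s, hsc, hso, hsb⟩ := ih (by omega)
    obtain ⟨u, b, hsu, hb⟩ :=
      Orthonormal.exists_orthonormalBasis_extension (v := (↑s : Set E)) (𝕜 := 𝕜) hso
    -- some unit vector orthogonal to `s` has a large image
    by_cases hex : ∃ e : E, ‖e‖ = 1 ∧ (∀ f ∈ s, ⟪f, e⟫_𝕜 = 0) ∧ 1 / 4 ≤ ‖T e‖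
    · obtain ⟨e, he1, heo, heb⟩ := hex
      have hes : e ∉ s := fun h => by
        have := heo e h
        rw [inner_self_eq_norm_sq_to_K, he1] at this
        simp at this
      refine ⟨insert e s, by rw [Finset.card_insert_of_notMem hes, hsc], ?_, ?_⟩
      · rw [orthonormal_subtype_iff_ite]
        intro x hx y hy
        have hs' := orthonormal_subtype_iff_ite.mp hso
        rcases Finset.mem_insert.mp hx with rfl | hx' <;>
          rcases Finset.mem_insert.mp hy with rfl | hy'
        · simp [inner_self_eq_norm_sq_to_K, he1]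
        · rw [if_neg (fun h => hes (by rw [h]; exact hy')), inner_eq_zero_symm]
          exact heo y hy'
        · rw [if_neg (fun h : x = _ => hes (by rw [← h]; exact hx'))]
          exact heo x hx'
        · exact hs' x hx' y hy'
      · intro x hx
        rcases Finset.mem_insert.mp hx with rfl | hx'
        · exact heb
        · exact hsb x hx'
    · exfalso
      push Not at hex
      set W : Finset {x // x ∈ u} := Finset.univ.filter (fun i => (i : E) ∉ s) with hW
      have hsmall : ∀ z : E, (∀ f ∈ s, ⟪f, z⟫_𝕜 = 0) → ‖T z‖ ≤ 1 / 4 * ‖z‖ := by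
        intro z hz
        rcases eq_or_ne z 0 with rfl | hz0
        · simp
        · have hzn : 0 < ‖z‖ := norm_pos_iff.mpr hz0
          have hlt := hex (((‖z‖ : 𝕜)⁻¹) • z)
            (by rw [norm_smul, norm_inv, RCLike.norm_ofReal, abs_norm, inv_mul_cancel₀ hzn.ne'])
            (fun f hf => by rw [inner_smul_right, hz f hf, mul_zero])
          rw [map_smul, norm_smul, norm_inv, RCLike.norm_ofReal, abs_norm,
            inv_mul_lt_iff₀ hzn] at hlt
          linarith
      let d : {x // x ∈ u} → ℝ := fun i => if i ∈ W then 3 / 2 else 5 / 6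
      let Pm : E →L[𝕜] E :=
        ∑ i ∈ W, (innerSL 𝕜 (b i)).smulRight (b i)
      let B : E →L[𝕜] E :=
        ((5 / 6 : ℝ) : 𝕜) • ContinuousLinearMap.id 𝕜 E + ((2 / 3 : ℝ) : 𝕜) • Pm
      have hPx : ∀ x, Pm x = ∑ i ∈ W, ⟪b i, x⟫_𝕜 • b i := fun x => by simp [Pm]
      have hPorth : ∀ x, ∀ f ∈ s, ⟪f, Pm x⟫_𝕜 = 0 := by
        intro x f hf
        rw [hPx, inner_sum]
        refine Finset.sum_eq_zero (fun i hi => ?_)
        have hfu : f ∈ u := hsu hf
        have hif : (⟨f, hfu⟩ : {x // x ∈ u}) ≠ i := by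
          intro h
          have hi2 := (Finset.mem_filter.mp hi).2
          rw [← h] at hi2
          exact hi2 hf
        have h0 : ⟪b ⟨f, hfu⟩, b i⟫_𝕜 = 0 := b.orthonormal.2 hif
        have hbf : (b ⟨f, hfu⟩ : E) = f := by rw [hb]
        rw [hbf] at h0
        rw [inner_smul_right, h0, mul_zero]
      have hPnorm : ∀ x, ‖Pm x‖ ≤ ‖x‖ := by
        intro x
        refine le_of_pow_le_pow_left₀ two_ne_zero (norm_nonneg _) ?_
        have h1 : ‖Pm x‖ ^ 2 = ∑ i ∈ W, ‖⟪b i, x⟫_𝕜‖ ^ 2 := by
          rw [hPx, @norm_sq_eq_re_inner 𝕜, b.orthonormal.inner_sum, map_sum]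
          refine Finset.sum_congr rfl (fun i _ => ?_)
          rw [RCLike.conj_mul, ← RCLike.ofReal_pow, RCLike.ofReal_re]
        rw [h1]
        exact b.orthonormal.sum_inner_products_le x
      have hB : ‖T.comp B‖ ≤ 1 := by
        refine ContinuousLinearMap.opNorm_le_bound _ zero_le_one (fun x => ?_)
        have e1 : (T.comp B) x =
            ((5 / 6 : ℝ) : 𝕜) • T x + ((2 / 3 : ℝ) : 𝕜) • T (Pm x) := by simp [B]
        have e2 : ‖T x‖ ≤ ‖x‖ := by
          refine (T.le_opNorm x).trans ?_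
          exact mul_le_of_le_one_left (norm_nonneg _) hT
        have e3 : ‖T (Pm x)‖ ≤ 1 / 4 * ‖x‖ :=
          (hsmall _ (hPorth x)).trans (by linarith [hPnorm x])
        rw [e1, one_mul]
        refine (norm_add_le _ _).trans ?_
        rw [norm_smul, norm_smul, RCLike.norm_ofReal, RCLike.norm_ofReal,
          abs_of_pos (by norm_num : (0 : ℝ) < 5 / 6), abs_of_pos (by norm_num : (0 : ℝ) < 2 / 3)]
        linarith
      have hBb : ∀ i, B (b i) = ((d i : ℝ) : 𝕜) • b i := by
        intro i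
        have hP : Pm (b i) = if i ∈ W then b i else 0 := by
          rw [hPx]
          simp [orthonormal_iff_ite.mp b.orthonormal, Finset.sum_ite_eq']
        by_cases h : i ∈ W
        · simp only [B, d, add_apply, smul_apply, ContinuousLinearMap.id_apply, hP, if_pos h,
            ← add_smul]
          congr 1
          rw [← RCLike.ofReal_add]
          norm_num
        · simp [B, d, hP, h]
      have hdet : LinearMap.det (B : E →ₗ[𝕜] E) = ∏ i, ((d i : ℝ) : 𝕜) := by
        rw [← LinearMap.det_toMatrix b.toBasis, ← Matrix.det_diagonal]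
        congr 1
        ext i k
        rw [LinearMap.toMatrix_apply]
        simp only [OrthonormalBasis.coe_toBasis, OrthonormalBasis.coe_toBasis_repr_apply,
          ContinuousLinearMap.coe_coe, hBb, b.repr_apply_apply, inner_smul_right,
          orthonormal_iff_ite.mp b.orthonormal, Matrix.diagonal_apply]
        by_cases h : i = k
        · subst h; simp
        · simp [h]
      have hcardu : Fintype.card {x // x ∈ u} = 2 * N := by
        rw [← hN, Module.finrank_eq_card_basis b.toBasis]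
      have hdisj : (W.card) + (Finset.univ.filter
          (fun i : {x // x ∈ u} => ¬ ((i : E) ∉ s))).card = 2 * N := by
        rw [hW, Finset.card_filter_add_card_filter_not, Finset.card_univ, hcardu]
      have hcomp : (Finset.univ.filter
          (fun i : {x // x ∈ u} => ¬ ((i : E) ∉ s))).card ≤ j := by
        rw [← hsc]
        refine Finset.card_le_card_of_injOn (fun i => (i : E)) ?_ ?_
        · intro i hi
          simpa using hi
        · exact fun a _ c _ h => Subtype.ext h
      set k := W.card with hk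
      set l := (Finset.univ.filter (fun i : {x // x ∈ u} => ¬ ((i : E) ∉ s))).card with hl
      have hprod : ∏ i, d i = (3 / 2 : ℝ) ^ k * (5 / 6 : ℝ) ^ l := by
        rw [← Finset.prod_filter_mul_prod_filter_not Finset.univ (fun i : {x // x ∈ u} => (i : E) ∉ s)]
        congr 1
        · rw [Finset.prod_congr rfl (fun i hi => if_pos hi), Finset.prod_const]
        · rw [Finset.prod_congr rfl (g := fun _ => (5 / 6 : ℝ)), Finset.prod_const]
          intro i hi
          refine if_neg ?_
          simp only [hW, Finset.mem_filter, Finset.mem_univ, true_and] at hi ⊢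
          exact hi
      have hgt : 1 < ∏ i, d i := by
        rw [hprod]
        have hkl : l + 1 ≤ k := by omega
        obtain ⟨m, hm⟩ := Nat.exists_eq_add_of_le hkl
        rw [hm, pow_add, pow_succ]
        have e : (3 / 2 : ℝ) ^ l * (3 / 2) * (3 / 2) ^ m * (5 / 6) ^ l =
            (5 / 4 : ℝ) ^ l * ((3 / 2) * (3 / 2) ^ m) := by
          rw [show (5 / 4 : ℝ) = (3 / 2) * (5 / 6) by norm_num, mul_pow]; ring
        rw [e]
        have h1 : (1 : ℝ) ≤ (5 / 4 : ℝ) ^ l := one_le_pow₀ (by norm_num)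
        have h2 : (1 : ℝ) ≤ (3 / 2 : ℝ) ^ m := one_le_pow₀ (by norm_num)
        nlinarith
      have hle := hmax B hB
      rw [hdet, ← RCLike.ofReal_prod, RCLike.norm_ofReal, abs_of_pos (by linarith)] at hle
      linarith

end DR

/-- Blocks of functionals: norms in `[1/4, 1]`, values square-summable with constant `1`. -/
theorem exists_block {X : Type*} [NormedAddCommGroup X] [NormedSpace 𝕜 X]
    (hX : ¬ FiniteDimensional 𝕜 X) (N : ℕ) :
    ∃ v : Fin N → StrongDual 𝕜 X, (∀ i, 1 / 4 ≤ ‖v i‖ ∧ ‖v i‖ ≤ 1) ∧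
      ∀ x : X, ∑ i, ‖v i x‖ ^ 2 ≤ ‖x‖ ^ 2 := by
  classical
  have hdual : ¬ FiniteDimensional 𝕜 (StrongDual 𝕜 X) := by
    intro h
    let J := NormedSpace.inclusionInDoubleDualLi (E := X) 𝕜
    have hJ : Function.Injective J.toLinearMap := fun a c h => J.injective h
    have := h
    have : FiniteDimensional 𝕜 (StrongDual 𝕜 (StrongDual 𝕜 X)) :=
      inferInstanceAs (Module.Finite 𝕜 (StrongDual 𝕜 X →L[𝕜] 𝕜))
    exact hX (FiniteDimensional.of_injective (V₂ := StrongDual 𝕜 (StrongDual 𝕜 X))
      J.toLinearMap hJ)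
  have hrk : ((2 * N : ℕ) : Cardinal) ≤ Module.rank 𝕜 (StrongDual 𝕜 X) := by
    refine le_trans Cardinal.natCast_lt_aleph0.le (not_lt.mp ?_)
    intro h
    exact hdual (Module.rank_lt_aleph0_iff.mp h)
  obtain ⟨w, hw⟩ := le_rank_iff_exists_linearIndependent_finset.mp hrk
  obtain ⟨hwc, hwi⟩ := hw
  let e : Fin (2 * N) ≃ w := (finCongr hwc.symm).trans w.equivFin.symm
  let T0 : EuclideanSpace 𝕜 (Fin (2 * N)) →ₗ[𝕜] StrongDual 𝕜 X :=
    (Fintype.linearCombination 𝕜 (fun i => ((e i : w) : StrongDual 𝕜 X))).comp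
      (WithLp.linearEquiv 2 𝕜 (Fin (2 * N) → 𝕜)).toLinearMap
  have hT0 : Function.Injective T0 := by
    have : LinearIndependent 𝕜 (fun i => ((e i : w) : StrongDual 𝕜 X)) :=
      hwi.comp _ e.injective
    intro a c hac
    exact (WithLp.linearEquiv 2 𝕜 (Fin (2 * N) → 𝕜)).injective
      (this.fintypeLinearCombination_injective hac)
  let T1 : EuclideanSpace 𝕜 (Fin (2 * N)) →L[𝕜] StrongDual 𝕜 X := T0.toContinuousLinearMap
  obtain ⟨K, hK0, hK⟩ := T1.toLinearMap.exists_antilipschitzWith
    (LinearMap.ker_eq_bot.mpr hT0)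
  let Kset : Set (EuclideanSpace 𝕜 (Fin (2 * N)) →L[𝕜] EuclideanSpace 𝕜 (Fin (2 * N))) :=
    {A | ‖T1.comp A‖ ≤ 1}
  have hcl : IsClosed Kset := by
    refine isClosed_le ?_ continuous_const
    exact ((ContinuousLinearMap.compL 𝕜 _ _ _ T1).continuous).norm
  have hbd : Bornology.IsBounded Kset := by
    refine (isBounded_iff_forall_norm_le).mpr ⟨K, fun A hA => ?_⟩
    refine ContinuousLinearMap.opNorm_le_bound _ K.coe_nonneg (fun x => ?_)
    have h1 := ZeroHomClass.bound_of_antilipschitz T1 hK (A x)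
    refine h1.trans (mul_le_mul_of_nonneg_left ?_ K.coe_nonneg)
    have h2 := (T1.comp A).le_opNorm x
    exact h2.trans (mul_le_of_le_one_left (norm_nonneg _) hA)
  have : ProperSpace (EuclideanSpace 𝕜 (Fin (2 * N)) →L[𝕜] EuclideanSpace 𝕜 (Fin (2 * N))) :=
    FiniteDimensional.proper_rclike 𝕜 _
  have hcompact : IsCompact Kset := Metric.isCompact_of_isClosed_isBounded hcl hbd
  have hzero : (0 : EuclideanSpace 𝕜 (Fin (2 * N)) →L[𝕜] _) ∈ Kset := by
    show ‖T1.comp 0‖ ≤ 1
    rw [ContinuousLinearMap.comp_zero, ContinuousLinearMap.opNorm_zero]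
    exact zero_le_one
  obtain ⟨A, hA, hAmax⟩ := hcompact.exists_isMaxOn ⟨0, hzero⟩
    ((continuous_norm.comp ContinuousLinearMap.continuous_det).continuousOn)
  have hApos : 0 < ‖A.det‖ := by
    let c : 𝕜 := (((‖T1‖ + 1)⁻¹ : ℝ) : 𝕜)
    have hc : c ≠ 0 := by
      simp only [c, ne_eq, RCLike.ofReal_eq_zero, inv_eq_zero]
      linarith [norm_nonneg T1]
    have hmem : c • ContinuousLinearMap.id 𝕜 (EuclideanSpace 𝕜 (Fin (2 * N))) ∈ Kset := by
      show ‖T1.comp (c • ContinuousLinearMap.id 𝕜 _)‖ ≤ 1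
      rw [ContinuousLinearMap.comp_smul, ContinuousLinearMap.comp_id]
      refine (ContinuousLinearMap.opNorm_smul_le c T1).trans ?_
      rw [RCLike.norm_ofReal, abs_of_pos (by positivity), inv_mul_le_iff₀ (by positivity)]
      linarith
    have h := hAmax hmem
    simp only [Set.mem_ofPred_eq, Function.comp_apply] at h
    refine lt_of_lt_of_le ?_ h
    rw [norm_pos_iff, ContinuousLinearMap.det, ContinuousLinearMap.toLinearMap_smul,
      ContinuousLinearMap.coe_id, LinearMap.det_smul, LinearMap.det_id, mul_one]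
    exact pow_ne_zero _ hc
  let T := T1.comp A
  have hmax : ∀ B : EuclideanSpace 𝕜 (Fin (2 * N)) →L[𝕜] EuclideanSpace 𝕜 (Fin (2 * N)),
      ‖T.comp B‖ ≤ 1 → ‖LinearMap.det
        (B : EuclideanSpace 𝕜 (Fin (2 * N)) →ₗ[𝕜] EuclideanSpace 𝕜 (Fin (2 * N)))‖ ≤ 1 := by
    intro B hB
    have hmem : A.comp B ∈ Kset := hB
    have h := hAmax hmem
    simp only [Set.mem_ofPred_eq, Function.comp_apply, ContinuousLinearMap.det,
      ContinuousLinearMap.toLinearMap_comp, LinearMap.det_comp, norm_mul] at h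
    simp only [ContinuousLinearMap.det] at hApos
    exact le_of_mul_le_mul_left (by linarith) hApos
  obtain ⟨s, hsc, hso, hsb⟩ :=
    exists_orthonormal_large T hA hmax (by simp) N le_rfl
  let f : Fin N ≃ s := (finCongr hsc.symm).trans s.equivFin.symm
  have hof : Orthonormal 𝕜 (fun i => ((f i : s) : EuclideanSpace 𝕜 (Fin (2 * N)))) :=
    hso.comp _ f.injective
  refine ⟨fun i => T (f i), fun i => ⟨hsb _ (f i).2, ?_⟩, fun x => ?_⟩
  · refine (T.le_opNorm _).trans ?_
    rw [hof.1 i, mul_one]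
    exact hA
  · set S := ∑ i, ‖T (f i) x‖ ^ 2 with hS
    have hS0 : 0 ≤ S := Finset.sum_nonneg fun i _ => sq_nonneg _
    let z : EuclideanSpace 𝕜 (Fin (2 * N)) :=
      ∑ i, (starRingEnd 𝕜) (T (f i) x) • ((f i : s) : EuclideanSpace 𝕜 (Fin (2 * N)))
    have hz : ‖z‖ = Real.sqrt S := by
      rw [hS, ← Real.sqrt_sq (norm_nonneg z)]
      congr 1
      rw [@norm_sq_eq_re_inner 𝕜, hof.inner_sum, map_sum]
      refine Finset.sum_congr rfl (fun i _ => ?_)
      rw [RCLike.conj_conj, RCLike.mul_conj, ← RCLike.ofReal_pow, RCLike.ofReal_re]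
    have hTz : (T z) x = (S : 𝕜) := by
      simp [z, hS, map_sum, RCLike.conj_mul]
    have h1 : ‖(T z) x‖ ≤ ‖T z‖ * ‖x‖ := (T z).le_opNorm x
    have h2 : ‖T z‖ ≤ ‖z‖ := (T.le_opNorm z).trans (mul_le_of_le_one_left (norm_nonneg _) hA)
    rw [hTz, RCLike.norm_ofReal, abs_of_nonneg hS0] at h1
    rw [hz] at h2
    rcases eq_or_lt_of_le hS0 with h0 | h0
    · rw [← h0]; positivity
    · have hs := Real.sq_sqrt hS0
      have hsp := Real.sqrt_pos.mpr h0
      have h3 : Real.sqrt S ≤ ‖x‖ := by
        have := h1.trans (mul_le_mul_of_nonneg_right h2 (norm_nonneg x))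
        nlinarith
      nlinarith

end Vale.Agent.P129

end
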