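import Mathlib

/-!
P129 helper: functionals of norm bounded below and above whose values are absolutely summable
at every point of a dense subspace give a separable infinite-dimensional quotient.
-/

noncomputable section

open Filter Topology

namespace Vale.Agent.P129

variable {𝕜 : Type*} [RCLike 𝕜] {X : Type*} [NormedAddCommGroup X] [NormedSpace 𝕜 X]
  {g : ℕ → StrongDual 𝕜 X} {F : Submodule 𝕜 X}

lemma tendsto_apply_zero (hg : ∀ n, ‖g n‖ ≤ 1) (hF : Dense (F : Set X))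
    (hsum : ∀ x ∈ F, Summable (fun n => ‖g n x‖)) (x : X) :
    Tendsto (fun n => g n x) atTop (𝓝 0) := by
  rw [Metric.tendsto_atTop]
  intro ε hε
  obtain ⟨y, hyF, hy⟩ : ∃ y ∈ (F : Set X), dist x y < ε / 2 :=
    Metric.dense_iff.mp hF x (ε / 2) (by linarith) |>.imp fun y hy =>
      ⟨hy.2, by rw [dist_comm]; exact hy.1⟩
  obtain ⟨M, hM⟩ := Metric.tendsto_atTop.mp (hsum y hyF).tendsto_atTop_zero (ε / 2) (by linarith)
  refine ⟨M, fun n hn => ?_⟩
  have h1 := hM n hn
  rw [dist_zero_right, norm_norm] at h1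
  rw [dist_zero_right]
  have h2 : ‖g n (x - y)‖ ≤ ‖x - y‖ :=
    ((g n).le_opNorm _).trans (mul_le_of_le_one_left (norm_nonneg _) (hg n))
  have h3 : ‖g n x‖ ≤ ‖g n (x - y)‖ + ‖g n y‖ := by
    calc ‖g n x‖ = ‖g n (x - y) + g n y‖ := by rw [map_sub, sub_add_cancel]
      _ ≤ _ := norm_add_le _ _
  rw [dist_eq_norm] at hy
  linarith

/-- Eventually the `g n` stay away from any given finite-dimensional subspace. -/
lemma eventually_far (hlo : ∀ n, 1 / 4 ≤ ‖g n‖) (hup : ∀ n, ‖g n‖ ≤ 1)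
    (hlim : ∀ x, Tendsto (fun n => g n x) atTop (𝓝 0))
    (G : Submodule 𝕜 (StrongDual 𝕜 X)) [FiniteDimensional 𝕜 G] :
    ∃ M, ∀ n ≥ M, ∀ h ∈ G, 1 / 16 ≤ ‖g n - h‖ := by
  by_contra hcon
  push Not at hcon
  choose φ hφ h hhG hh using hcon
  have : ProperSpace G := FiniteDimensional.proper_rclike 𝕜 G
  have hbd : ∀ M, (⟨h M, hhG M⟩ : G) ∈ Metric.closedBall (0 : G) 2 := by
    intro M
    refine Metric.mem_closedBall.mpr ?_
    show dist (h M) ((0 : G) : StrongDual 𝕜 X) ≤ 2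
    rw [ZeroMemClass.coe_zero, dist_zero_right]
    have := norm_le_norm_add_norm_sub' (h M) (g (φ M))
    have := hup (φ M)
    have := hh M
    rw [norm_sub_rev] at this
    linarith
  obtain ⟨l, _, ψ, hψ, hl⟩ := (isCompact_closedBall (0 : G) 2).tendsto_subseq hbd
  have hl' : Tendsto (fun k => h (ψ k)) atTop (𝓝 (l : StrongDual 𝕜 X)) :=
    (continuous_subtype_val.tendsto l).comp hl
  have hidx : Tendsto (fun k => φ (ψ k)) atTop atTop :=
    tendsto_atTop_mono (fun k => hφ (ψ k)) hψ.tendsto_atTop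
  have hlsmall : ‖(l : StrongDual 𝕜 X)‖ ≤ 1 / 16 := by
    refine ContinuousLinearMap.opNorm_le_bound _ (by norm_num) (fun x => ?_)
    have hA : Tendsto (fun k => ‖g (φ (ψ k)) x‖ + 1 / 16 * ‖x‖) atTop
        (𝓝 (0 + 1 / 16 * ‖x‖)) := by
      have h0 : Tendsto (fun k => ‖g (φ (ψ k)) x‖) atTop (𝓝 0) :=
        tendsto_zero_iff_norm_tendsto_zero.mp ((hlim x).comp hidx)
      exact h0.add_const _
    have hB : Tendsto (fun k => ‖h (ψ k) x‖) atTop (𝓝 ‖(l : StrongDual 𝕜 X) x‖) :=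
      (((ContinuousLinearMap.apply 𝕜 𝕜 x).continuous.tendsto _).comp hl').norm
    rw [zero_add] at hA
    refine le_of_tendsto_of_tendsto' hB hA (fun k => ?_)
    calc ‖h (ψ k) x‖ = ‖g (φ (ψ k)) x - (g (φ (ψ k)) - h (ψ k)) x‖ := by
          rw [sub_apply, sub_sub_cancel]
      _ ≤ ‖g (φ (ψ k)) x‖ + ‖(g (φ (ψ k)) - h (ψ k)) x‖ := norm_sub_le _ _
      _ ≤ _ := by
          gcongr
          exact ((g (φ (ψ k)) - h (ψ k)).le_opNorm x).trans
            (mul_le_mul_of_nonneg_right (hh _).le (norm_nonneg _))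
  obtain ⟨k, hk⟩ := (Metric.tendsto_atTop.mp hl') (1 / 16) (by norm_num)
  have h1 := hk k le_rfl
  rw [dist_eq_norm] at h1
  have h2 := hlo (φ (ψ k))
  have h3 := hh (ψ k)
  have h4 := norm_le_norm_add_norm_sub' (g (φ (ψ k))) (h (ψ k))
  have h5 := norm_le_norm_add_norm_sub' (h (ψ k)) (l : StrongDual 𝕜 X)
  linarith

/-- A vector in `F` normalised at `f` and killed by finitely many given functionals. -/
lemma exists_vector (hF : Dense (F : Set X)) (s : Finset (StrongDual 𝕜 X))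
    (f : StrongDual 𝕜 X)
    (hfar : ∀ h ∈ Submodule.span 𝕜 (s : Set (StrongDual 𝕜 X)), 1 / 16 ≤ ‖f - h‖) :
    ∃ x ∈ F, f x = 1 ∧ (∀ a ∈ s, a x = 0) ∧ ‖x‖ ≤ 40 := by
  classical
  let K : Submodule 𝕜 X :=
    ⨅ a : {a // a ∈ s}, LinearMap.ker ((a : StrongDual 𝕜 X) : X →ₗ[𝕜] 𝕜)
  have hKmem : ∀ {x : X}, x ∈ K ↔ ∀ a ∈ s, a x = 0 := by
    intro x
    simp [K, Submodule.mem_iInf, Subtype.forall]
  -- the restriction of `f` to `K` has norm at least `1/16`
  obtain ⟨e, he, hen⟩ := exists_extension_norm_eq K (f.comp K.subtypeL)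
  have hspan : f - e ∈ Submodule.span 𝕜 (s : Set (StrongDual 𝕜 X)) := by
    have hmem : ((f - e : StrongDual 𝕜 X) : X →ₗ[𝕜] 𝕜) ∈ Submodule.span 𝕜
        (Set.range (fun a : {a // a ∈ s} => ((a : StrongDual 𝕜 X) : X →ₗ[𝕜] 𝕜))) := by
      refine mem_span_of_iInf_ker_le_ker (fun x hx => ?_)
      have hxK : x ∈ K := hx
      have := he ⟨x, hxK⟩
      simp only [LinearMap.mem_ker, ContinuousLinearMap.coe_coe, sub_apply]
      rw [this]
      simp
    obtain ⟨c, hc⟩ := (Submodule.mem_span_range_iff_exists_fun 𝕜).mp hmem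
    have : f - e = ∑ a : {a // a ∈ s}, c a • (a : StrongDual 𝕜 X) := by
      refine ContinuousLinearMap.ext fun x => ?_
      have := congrArg (fun φ : X →ₗ[𝕜] 𝕜 => φ x) hc
      simpa using this.symm
    rw [this]
    exact Submodule.sum_mem _ fun a _ => Submodule.smul_mem _ _ (Submodule.subset_span a.2)
  have hnorm : 1 / 16 ≤ ‖f.comp K.subtypeL‖ := by
    have := hfar _ hspan
    rw [sub_sub_cancel, hen] at this
    exact this
  obtain ⟨z, hz⟩ : ∃ z : K, 1 / 32 * ‖z‖ < ‖f z‖ := by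
    by_contra hcon
    push Not at hcon
    have := ContinuousLinearMap.opNorm_le_bound (M := 1 / 32) (f.comp K.subtypeL) (by norm_num)
      (fun z => hcon z)
    linarith
  have hfz : f (z : X) ≠ 0 := by
    intro h0
    rw [h0, norm_zero] at hz
    nlinarith [norm_nonneg z]
  set y : X := (f (z : X))⁻¹ • (z : X) with hy
  have hyf : f y = 1 := by rw [hy, map_smul, smul_eq_mul, inv_mul_cancel₀ hfz]
  have hyK : ∀ a ∈ s, a y = 0 := fun a ha => by
    rw [hy, map_smul, hKmem.mp z.2 a ha, smul_zero]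
  have hyn : ‖y‖ ≤ 32 := by
    rw [hy, norm_smul, norm_inv, inv_mul_le_iff₀ (norm_pos_iff.mpr hfz)]
    show ‖z‖ ≤ _
    linarith
  -- move `y` into `F` without changing the finitely many constraints
  let Φ : X →L[𝕜] ({a // a ∈ s} → 𝕜) × 𝕜 :=
    (ContinuousLinearMap.pi fun a : {a // a ∈ s} => (a : StrongDual 𝕜 X)).prod f
  let Φ' : F →ₗ[𝕜] ({a // a ∈ s} → 𝕜) × 𝕜 := (Φ : X →ₗ[𝕜] _).comp F.subtype
  obtain ⟨S, hS⟩ := Φ'.rangeRestrict.exists_rightInverse_of_surjective Φ'.range_rangeRestrict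
  have hrange : ∀ x, Φ x ∈ LinearMap.range Φ' := by
    intro x
    have hclosed : IsClosed (LinearMap.range Φ' : Set (({a // a ∈ s} → 𝕜) × 𝕜)) :=
      Submodule.closed_of_finiteDimensional _
    have hsub : closure (F : Set X) ⊆
        Φ ⁻¹' (LinearMap.range Φ' : Set (({a // a ∈ s} → 𝕜) × 𝕜)) :=
      closure_minimal (fun u hu => LinearMap.mem_range.mpr ⟨⟨u, hu⟩, rfl⟩)
        (hclosed.preimage Φ.continuous)
    exact hsub (hF x)
  obtain ⟨C, hC0, hC⟩ :=
    (S.toContinuousLinearMap).bound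
  obtain ⟨δ, hδ0, hδ⟩ : ∃ δ : ℝ, 0 < δ ∧ δ + C * (‖Φ‖ * δ) ≤ 8 := by
    refine ⟨8 / (1 + C * ‖Φ‖), by positivity, le_of_eq ?_⟩
    have : (1 + C * ‖Φ‖) ≠ 0 := by positivity
    field_simp
  obtain ⟨y', hy'F, hy'⟩ : ∃ y' ∈ (F : Set X), dist y y' < δ :=
    Metric.dense_iff.mp hF y δ hδ0 |>.imp fun u hu =>
      ⟨hu.2, by rw [dist_comm]; exact hu.1⟩
  let w : LinearMap.range Φ' :=
    ⟨Φ y - Φ y', Submodule.sub_mem _ (hrange y) (hrange y')⟩
  let u : F := S w
  have hu : Φ (u : X) = Φ y - Φ y' := by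
    have := congrArg Subtype.val (LinearMap.congr_fun hS w)
    simpa [u, Φ', w] using this
  refine ⟨y' + u, F.add_mem hy'F u.2, ?_, ?_, ?_⟩
  · have := congrArg Prod.snd hu
    simp only [Φ, ContinuousLinearMap.prod_apply, Prod.snd_sub] at this
    rw [map_add, this, hyf]
    ring
  · intro a ha
    have := congrFun (congrArg Prod.fst hu) ⟨a, ha⟩
    simp only [Φ, ContinuousLinearMap.prod_apply, Prod.fst_sub, ContinuousLinearMap.pi_apply,
      Pi.sub_apply] at this
    rw [map_add, this, hyK a ha]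
    ring
  · have h1 : ‖(u : X)‖ ≤ C * (‖Φ‖ * δ) := by
      refine (hC w).trans (mul_le_mul_of_nonneg_left ?_ hC0.le)
      show ‖Φ y - Φ y'‖ ≤ _
      rw [← map_sub]
      refine (Φ.le_opNorm _).trans (mul_le_mul_of_nonneg_left ?_ (norm_nonneg _))
      rw [← dist_eq_norm]
      exact hy'.le
    have h2 := norm_add_le y' (u : X)
    have h3 : ‖y'‖ ≤ ‖y‖ + δ := by
      have := norm_le_norm_add_norm_sub' y' y
      rw [norm_sub_rev, ← dist_eq_norm] at this
      linarith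
    linarith

/-- Strictly lower triangular matrices with small column sums can be inverted on `ℓ¹`. -/
lemma exists_coeff {k : ℕ → ℕ → 𝕜} (hk : ∀ j, ∀ s : Finset ℕ, (∀ i ∈ s, j < i) →
      ∑ i ∈ s, ‖k i j‖ ≤ 1 / 4)
    {a : ℕ → 𝕜} (ha : Summable (fun i => ‖a i‖)) :
    ∃ c : ℕ → 𝕜, Summable (fun i => ‖c i‖) ∧
      ∀ i, c i + ∑ j ∈ Finset.range i, c j * k i j = a i := by
  have key : ∃ c : ℕ → 𝕜, ∀ i, c i = a i - ∑ j : Fin i, c j * k i j := by
    refine ⟨fun i => Nat.strongRec (motive := fun _ => 𝕜)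
      (fun i c => a i - ∑ j : Fin i, c j j.2 * k i j) i, fun i => ?_⟩
    simp only
    rw [Nat.strongRec]
  obtain ⟨c, hc⟩ := key
  have hc' : ∀ i, c i + ∑ j ∈ Finset.range i, c j * k i j = a i := fun i => by
    rw [hc i, Finset.sum_range (fun j => c j * k i j), sub_add_cancel]
  refine ⟨c, summable_of_sum_range_le (c := 4 / 3 * ∑' i, ‖a i‖)
    (fun _ => norm_nonneg _) (fun n => ?_), hc'⟩
  have h1 : ∑ i ∈ Finset.range n, ‖c i‖ ≤ ∑ i ∈ Finset.range n,
      (‖a i‖ + ∑ j ∈ Finset.range i, ‖c j‖ * ‖k i j‖) := by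
    refine Finset.sum_le_sum fun i _ => ?_
    have : c i = a i - ∑ j ∈ Finset.range i, c j * k i j := eq_sub_of_add_eq (hc' i)
    rw [this]
    refine (norm_sub_le _ _).trans (add_le_add le_rfl ((norm_sum_le _ _).trans ?_))
    exact Finset.sum_le_sum fun j _ => (norm_mul _ _).le
  have h2 : ∑ i ∈ Finset.range n, ∑ j ∈ Finset.range i, ‖c j‖ * ‖k i j‖ =
      ∑ j ∈ Finset.range n, ‖c j‖ * ∑ i ∈ Finset.Ioo j n, ‖k i j‖ := by
    simp only [Finset.mul_sum]
    refine Finset.sum_comm' fun i j => ?_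
    simp only [Finset.mem_range, Finset.mem_Ioo]
    omega
  have h3 : ∑ j ∈ Finset.range n, ‖c j‖ * ∑ i ∈ Finset.Ioo j n, ‖k i j‖ ≤
      ∑ j ∈ Finset.range n, ‖c j‖ * (1 / 4) := by
    refine Finset.sum_le_sum fun j _ => mul_le_mul_of_nonneg_left ?_ (norm_nonneg _)
    exact hk j _ fun i hi => (Finset.mem_Ioo.mp hi).1
  have h4 : ∑ i ∈ Finset.range n, ‖a i‖ ≤ ∑' i, ‖a i‖ :=
    ha.sum_le_tsum _ fun i _ => norm_nonneg _
  rw [Finset.sum_add_distrib] at h1
  rw [← Finset.sum_mul] at h3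
  linarith

variable [CompleteSpace X]

/-- The triangular construction. -/
theorem exists_quotient (hlo : ∀ n, 1 / 4 ≤ ‖g n‖) (hup : ∀ n, ‖g n‖ ≤ 1)
    (hF : Dense (F : Set X)) (hsum : ∀ x ∈ F, Summable (fun n => ‖g n x‖)) :
    ∃ M : Submodule 𝕜 X, IsClosed (M : Set X) ∧ TopologicalSpace.SeparableSpace (X ⧸ M) ∧
      ¬ FiniteDimensional 𝕜 (X ⧸ M) := by
  classical
  have hlim := tendsto_apply_zero hup hF hsum
  -- tail thresholds
  have htail : ∀ x : F, ∃ T : ℕ, ∀ s : Finset ℕ, (∀ i ∈ s, T ≤ i) →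
      ∑ i ∈ s, ‖g i (x : X)‖ ≤ 1 / 4 := by
    intro x
    obtain ⟨s₀, hs₀⟩ := summable_iff_vanishing_norm.mp (hsum x x.2) (1 / 4) (by norm_num)
    obtain ⟨T, hT⟩ : ∃ T : ℕ, ∀ i ∈ s₀, i < T :=
      ⟨s₀.sup id + 1, fun i hi => Nat.lt_succ_of_le (Finset.le_sup (f := id) hi)⟩
    refine ⟨T, fun s hs => le_trans (le_of_eq ?_) (hs₀ s (Finset.disjoint_left.mpr
      fun i hi hi' => absurd (hT i hi') (not_lt.mpr (hs i hi)))).le⟩
    rw [Real.norm_of_nonneg (Finset.sum_nonneg fun i _ => norm_nonneg _)]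
  choose tail htail using htail
  obtain ⟨p, hpP, hpr⟩ := exists_seq_of_forall_finset_exists
    (fun p : ℕ × F => g p.1 (p.2 : X) = 1 ∧ ‖(p.2 : X)‖ ≤ 40)
    (fun a b : ℕ × F => a.1 < b.1 ∧ tail a.2 ≤ b.1 ∧ g a.1 (b.2 : X) = 0) (by
      intro s _
      obtain ⟨M, hM⟩ := eventually_far hlo hup hlim
        (Submodule.span 𝕜 ((s.image fun a => g a.1 : Finset (StrongDual 𝕜 X)) :
          Set (StrongDual 𝕜 X)))
      obtain ⟨n, hn⟩ : ∃ n, M ≤ n ∧ ∀ a ∈ s, a.1 < n ∧ tail a.2 ≤ n := by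
        refine ⟨M + s.sup (fun a => a.1 + 1 + tail a.2), by omega, fun a ha => ?_⟩
        have : a.1 + 1 + tail a.2 ≤ s.sup (fun a => a.1 + 1 + tail a.2) :=
          Finset.le_sup (f := fun a : ℕ × F => a.1 + 1 + tail a.2) ha
        omega
      obtain ⟨x, hxF, hx1, hx0, hxn⟩ := exists_vector hF _ (g n) (hM n hn.1)
      exact ⟨(n, ⟨x, hxF⟩), ⟨hx1, hxn⟩, fun a ha =>
        ⟨(hn.2 a ha).1, (hn.2 a ha).2, hx0 _ (Finset.mem_image_of_mem _ ha)⟩⟩)
  let n : ℕ → ℕ := fun i => (p i).1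
  let x : ℕ → X := fun i => ((p i).2 : X)
  have hn : StrictMono n := strictMono_nat_of_lt_succ fun i => (hpr i (i + 1) (by omega)).1
  have hdiag : ∀ i, g (n i) (x i) = 1 := fun i => (hpP i).1
  have hupper : ∀ i j, i < j → g (n i) (x j) = 0 := fun i j h => (hpr i j h).2.2
  have hxn : ∀ j, ‖x j‖ ≤ 40 := fun j => (hpP j).2
  have hcol : ∀ j, ∀ s : Finset ℕ, (∀ i ∈ s, j < i) →
      ∑ i ∈ s, ‖g (n i) (x j)‖ ≤ 1 / 4 := by
    intro j s hs
    have := htail (p j).2 (s.image n) (by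
      intro m hm
      obtain ⟨i, hi, rfl⟩ := Finset.mem_image.mp hm
      exact (hpr j i (hs i hi)).2.1)
    rwa [Finset.sum_image fun a _ b _ h => hn.injective h] at this
  let M : Submodule 𝕜 X := ⨅ i, LinearMap.ker (g (n i) : X →ₗ[𝕜] 𝕜)
  have hMmem : ∀ {z : X}, z ∈ M ↔ ∀ i, g (n i) z = 0 := by
    intro z; simp [M, Submodule.mem_iInf]
  have hMclosed : IsClosed (M : Set X) := by
    have : (M : Set X) = ⋂ i, (g (n i)) ⁻¹' {0} := by
      ext z; simp [hMmem]
    rw [this]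
    exact isClosed_iInter fun i => isClosed_singleton.preimage (g (n i)).continuous
  have : IsClosed (M : Set X) := hMclosed
  let q : X → X ⧸ M := Submodule.Quotient.mk
  have hqc : Continuous q := continuous_quot_mk
  have hqsurj : Function.Surjective q := Submodule.Quotient.mk_surjective M
  -- every point of `F` agrees modulo `M` with a series in the `x j`
  have hrep : ∀ z ∈ F, q z ∈ closure (Submodule.span 𝕜 (Set.range (q ∘ x)) : Set (X ⧸ M)) := by
    intro z hz
    have ha : Summable (fun i => ‖g (n i) z‖) := (hsum z hz).comp_injective hn.injective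
    obtain ⟨c, hc, hrec⟩ := exists_coeff (k := fun i j => g (n i) (x j)) hcol ha
    have hcx : Summable (fun j => c j • x j) := by
      refine Summable.of_norm_bounded (hc.mul_right 40) (fun j => ?_)
      rw [norm_smul]
      exact mul_le_mul_of_nonneg_left (hxn j) (norm_nonneg _)
    have hy : z - ∑' j, c j • x j ∈ M := by
      rw [hMmem]
      intro i
      rw [map_sub, (g (n i)).map_tsum hcx,
        tsum_eq_sum (s := Finset.range (i + 1)) (fun j hj => by
          rw [map_smul, hupper i j (by simpa using hj), smul_zero]),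
        Finset.sum_range_succ, map_smul, hdiag i, smul_eq_mul, mul_one, sub_eq_zero]
      simp only [map_smul, smul_eq_mul]
      rw [add_comm]
      exact (hrec i).symm
    have hqz : q z = q (∑' j, c j • x j) := (Submodule.Quotient.eq M).mpr hy
    rw [hqz]
    refine mem_closure_of_tendsto ((hqc.tendsto _).comp hcx.hasSum.tendsto_sum_nat)
      (Eventually.of_forall fun k => ?_)
    show q (∑ j ∈ Finset.range k, c j • x j) ∈ Submodule.span 𝕜 (Set.range (q ∘ x))
    show M.mkQ (∑ j ∈ Finset.range k, c j • x j) ∈ _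
    rw [map_sum]
    refine Submodule.sum_mem _ fun j _ => ?_
    rw [map_smul]
    exact Submodule.smul_mem _ _ (Submodule.subset_span ⟨j, rfl⟩)
  refine ⟨M, hMclosed, ?_, ?_⟩
  · rw [← TopologicalSpace.isSeparable_univ_iff]
    refine TopologicalSpace.IsSeparable.mono
      ((Set.countable_range (q ∘ x)).isSeparable.span (R := 𝕜)).closure ?_
    intro w _
    have hd : Dense (q '' (F : Set X)) := hqsurj.denseRange.dense_image hqc hF
    exact closure_minimal (by rintro _ ⟨z, hz, rfl⟩; exact hrep z hz) isClosed_closure (hd w)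
  · intro hfd
    have hli : LinearIndependent 𝕜 (fun j => q (x j)) := by
      rw [linearIndependent_iff']
      intro s c hzero
      by_contra hne
      push Not at hne
      obtain ⟨i₀, hi₀⟩ : (s.filter fun i => c i ≠ 0).Nonempty := by
        obtain ⟨i, hi, hci⟩ := hne
        exact ⟨i, Finset.mem_filter.mpr ⟨hi, hci⟩⟩
      set i := (s.filter fun i => c i ≠ 0).min' ⟨i₀, hi₀⟩ with hidef
      have hi := Finset.mem_filter.mp ((s.filter fun i => c i ≠ 0).min'_mem ⟨i₀, hi₀⟩)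
      rw [← hidef] at hi
      have hmem : (∑ j ∈ s, c j • x j) ∈ M := by
        rw [← Submodule.Quotient.mk_eq_zero]
        show M.mkQ _ = 0
        rw [map_sum]
        simpa [q, map_smul] using hzero
      have := hMmem.mp hmem i
      rw [map_sum, Finset.sum_eq_single i] at this
      · rw [map_smul, hdiag, smul_eq_mul, mul_one] at this
        exact hi.2 this
      · intro j hj hji
        rcases lt_or_gt_of_ne hji with h | h
        · by_cases hcj : c j = 0
          · simp [hcj]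
          · have := (s.filter fun i => c i ≠ 0).min'_le j (Finset.mem_filter.mpr ⟨hj, hcj⟩)
            rw [← hidef] at this
            omega
        · rw [map_smul, hupper i j h, smul_zero]
      · exact fun h => absurd hi.1 h
    exact Infinite.not_finite (α := ℕ) hli.finite

end Vale.Agent.P129

end
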