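import Mathlib
import Vale.Agent.P129.Blocks
import Vale.Agent.P129.Quotient

/-!
P129: a random choice of one functional in each block.
-/

noncomputable section

open MeasureTheory Filter Topology

namespace Vale.Agent.P129

/-- `covNull`, the least cardinality of a family of Lebesgue null sets covering the real line. -/
def covNull : Cardinal.{0} :=
  sInf {c | ∃ 𝒩 : Set (Set ℝ),
    Cardinal.mk 𝒩 = c ∧ (∀ A ∈ 𝒩, volume A = 0) ∧ ⋃₀ 𝒩 = Set.univ}

lemma covNull_set_nonempty : {c : Cardinal.{0} | ∃ 𝒩 : Set (Set ℝ),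
    Cardinal.mk 𝒩 = c ∧ (∀ A ∈ 𝒩, volume A = 0) ∧ ⋃₀ 𝒩 = Set.univ}.Nonempty := by
  refine ⟨_, Set.range (fun x : ℝ => ({x} : Set ℝ)), rfl, ?_, ?_⟩
  · rintro A ⟨x, rfl⟩
    exact measure_singleton x
  · exact Set.eq_univ_of_forall fun x => ⟨{x}, ⟨x, rfl⟩, rfl⟩

theorem aleph0_lt_covNull : Cardinal.aleph0 < covNull := by
  obtain ⟨𝒩, h1, h2, h3⟩ := csInf_mem covNull_set_nonempty
  by_contra hle
  rw [covNull, not_lt, ← h1] at hle
  have hc : 𝒩.Countable := Cardinal.le_aleph0_iff_set_countable.mp hle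
  have h0 : volume (⋃₀ 𝒩) = 0 := (measure_sUnion_null_iff hc).mpr h2
  rw [h3, Real.volume_univ] at h0
  exact ENNReal.top_ne_zero h0

/-- Fewer than `covNull` null sets do not cover the line. -/
lemma exists_notMem_of_lt {ι : Type*} (A : ι → Set ℝ) (h0 : ∀ i, volume (A i) = 0)
    (hlt : Cardinal.lift.{0} (Cardinal.mk ι) < Cardinal.lift covNull) : ∃ t, ∀ i, t ∉ A i := by
  by_contra hcon
  push Not at hcon
  have hcov : covNull ≤ Cardinal.mk (Set.range A) :=
    csInf_le' ⟨Set.range A, rfl, by rintro _ ⟨i, rfl⟩; exact h0 i,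
      Set.eq_univ_of_forall fun (t : ℝ) => by
        obtain ⟨i, hi⟩ := hcon t
        exact ⟨A i, ⟨i, rfl⟩, hi⟩⟩
  have := (Cardinal.lift_le.mpr hcov).trans (Cardinal.mk_range_le_lift (f := A))
  exact (not_lt.mpr this) (by simpa using hlt)

/-- A null subset of `[0,1)` has null preimage under the fractional part. -/
lemma null_fract_preimage {B : Set ℝ} (hB : volume (B ∩ Set.Ico 0 1) = 0) :
    volume (Int.fract ⁻¹' B) = 0 := by
  have hsub : Int.fract ⁻¹' B ⊆ ⋃ k : ℤ, (fun t : ℝ => t + (-(k : ℝ))) ⁻¹' (B ∩ Set.Ico 0 1) := by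
    intro t ht
    refine Set.mem_iUnion.mpr ⟨⌊t⌋, ?_⟩
    have h : t + (-(⌊t⌋ : ℝ)) = Int.fract t := (sub_eq_add_neg t _).symm
    rw [Set.mem_preimage, h]
    exact ⟨ht, Int.fract_nonneg t, Int.fract_lt_one t⟩
  refine measure_mono_null hsub (measure_iUnion_null fun k => ?_)
  rw [measure_preimage_add_right]
  exact hB

/-- Which of `N` equal pieces of `[0,1)` contains the point. -/
def slot (N : ℕ) (t : ℝ) (hN : 0 < N) : Fin N :=
  ⟨min ⌊(N : ℝ) * t⌋₊ (N - 1), by omega⟩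

lemma measurable_slot (N : ℕ) (hN : 0 < N) : Measurable (fun t => slot N t hN) := by
  unfold slot
  refine (measurable_from_top (f := fun m : ℕ => (⟨min m (N - 1), by omega⟩ : Fin N))).comp
    (Nat.measurable_floor.comp (measurable_const_mul _))

lemma slot_preimage_subset (N : ℕ) (hN : 0 < N) (i : Fin N) :
    (fun t => slot N t hN) ⁻¹' {i} ∩ Set.Ico 0 1 ⊆
      Set.Ico ((i : ℕ) / (N : ℝ)) (((i : ℕ) + 1) / (N : ℝ)) := by
  rintro t ⟨hi, ht0, ht1⟩
  have hNr : (0 : ℝ) < N := Nat.cast_pos.mpr hN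
  have hlt : ⌊(N : ℝ) * t⌋₊ < N := by
    rw [Nat.floor_lt (by positivity)]
    exact mul_lt_of_lt_one_right hNr ht1
  have he : ⌊(N : ℝ) * t⌋₊ = (i : ℕ) := by
    have := congrArg Fin.val hi
    simp only [slot] at this
    omega
  have h1 := Nat.floor_le (show 0 ≤ (N : ℝ) * t by positivity)
  have h2 := Nat.lt_floor_add_one ((N : ℝ) * t)
  rw [he] at h1 h2
  constructor
  · rw [div_le_iff₀ hNr]; linarith
  · rw [lt_div_iff₀ hNr]; linarith

/-- The average over a uniformly chosen slot. -/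
lemma lintegral_slot_le (N : ℕ) (hN : 0 < N) (f : Fin N → ENNReal) :
    ∫⁻ t in Set.Ico (0 : ℝ) 1, f (slot N t hN) ≤ (∑ i, f i) * ENNReal.ofReal (1 / N) := by
  rw [Finset.sum_mul]
  have hpt : ∀ t, f (slot N t hN) =
      ∑ i, ((fun t => slot N t hN) ⁻¹' {i}).indicator (fun _ => f i) t := by
    intro t
    rw [Finset.sum_eq_single (slot N t hN)]
    · simp
    · intro i _ hi
      exact Set.indicator_of_notMem (fun h => hi h.symm) _
    · simp
  simp_rw [hpt]
  rw [lintegral_finsetSum _ fun i _ =>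
    measurable_const.indicator (measurable_slot N hN (measurableSet_singleton i))]
  refine Finset.sum_le_sum fun i _ => ?_
  rw [lintegral_indicator (measurable_slot N hN (measurableSet_singleton i)), setLIntegral_const,
    Measure.restrict_apply (measurable_slot N hN (measurableSet_singleton i))]
  refine mul_le_mul' le_rfl ((measure_mono (slot_preimage_subset N hN i)).trans (le_of_eq ?_))
  rw [Real.volume_Ico]
  congr 1
  ring

variable {𝕜 : Type*} [RCLike 𝕜] {X : Type*} [NormedAddCommGroup X] [NormedSpace 𝕜 X]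

/-- The functional chosen in block `n` by the point `t`. -/
def pick (v : ∀ n : ℕ, Fin (16 ^ n) → StrongDual 𝕜 X) (t : ℝ) (n : ℕ) : StrongDual 𝕜 X :=
  v n (slot (16 ^ n) (Int.fract t) (Nat.pow_pos (by norm_num)))

/-- For each point, almost every choice gives an absolutely summable sequence. -/
lemma null_bad (v : ∀ n : ℕ, Fin (16 ^ n) → StrongDual 𝕜 X)
    (hv : ∀ n (x : X), ∑ i, ‖v n i x‖ ^ 2 ≤ ‖x‖ ^ 2) (x : X) :
    volume {t : ℝ | ¬ Summable fun n => ‖pick v t n x‖} = 0 := by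
  have hN : ∀ n : ℕ, 0 < 16 ^ n := fun n => Nat.pow_pos (by norm_num)
  let G : ℝ → ENNReal := fun t => ∑' n, ENNReal.ofReal ‖v n (slot (16 ^ n) t (hN n)) x‖
  have hmeas : ∀ n, Measurable fun t =>
      ENNReal.ofReal ‖v n (slot (16 ^ n) t (hN n)) x‖ := fun n =>
    (measurable_of_finite fun i => ENNReal.ofReal ‖v n i x‖).comp (measurable_slot _ (hN n))
  have hint : ∀ n, ∫⁻ t in Set.Ico (0 : ℝ) 1, ENNReal.ofReal ‖v n (slot (16 ^ n) t (hN n)) x‖
      ≤ ENNReal.ofReal (‖x‖ * (1 / 4) ^ n) := by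
    intro n
    refine (lintegral_slot_le _ (hN n) fun i => ENNReal.ofReal ‖v n i x‖).trans ?_
    rw [← ENNReal.ofReal_sum_of_nonneg (fun i _ => norm_nonneg _),
      ← ENNReal.ofReal_mul (Finset.sum_nonneg fun i _ => norm_nonneg _)]
    refine ENNReal.ofReal_le_ofReal ?_
    have hcs := sq_sum_le_card_mul_sum_sq (s := (Finset.univ : Finset (Fin (16 ^ n))))
      (f := fun i => ‖v n i x‖)
    rw [Finset.card_univ, Fintype.card_fin, Nat.cast_pow, Nat.cast_ofNat] at hcs
    have h4 : ((4 : ℝ) ^ n * ‖x‖) ^ 2 = 16 ^ n * ‖x‖ ^ 2 := by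
      rw [mul_pow, ← pow_mul, mul_comm n 2, pow_mul]; norm_num
    have hle : ∑ i, ‖v n i x‖ ≤ 4 ^ n * ‖x‖ := by
      refine le_of_pow_le_pow_left₀ two_ne_zero (by positivity) ?_
      rw [h4]
      exact hcs.trans (mul_le_mul_of_nonneg_left (hv n x) (by positivity))
    calc (∑ i, ‖v n i x‖) * (1 / ((16 ^ n : ℕ) : ℝ))
        ≤ 4 ^ n * ‖x‖ * (1 / ((16 ^ n : ℕ) : ℝ)) :=
          mul_le_mul_of_nonneg_right hle (by positivity)
      _ = ‖x‖ * (1 / 4) ^ n := by
          rw [Nat.cast_pow, Nat.cast_ofNat, show (16 : ℝ) = 4 * 4 by norm_num, mul_pow, div_pow,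
            one_pow]
          field_simp
  have hfin : ∫⁻ t in Set.Ico (0 : ℝ) 1, G t ≠ ⊤ := by
    rw [lintegral_tsum fun n => (hmeas n).aemeasurable]
    have hs : Summable fun n : ℕ => ‖x‖ * (1 / 4 : ℝ) ^ n :=
      (summable_geometric_of_lt_one (by norm_num) (by norm_num)).mul_left _
    refine ne_top_of_le_ne_top ?_ (ENNReal.tsum_le_tsum hint)
    rw [← ENNReal.ofReal_tsum_of_nonneg (fun n => by positivity) hs]
    exact ENNReal.ofReal_ne_top
  have hae : ∀ᵐ t ∂(volume.restrict (Set.Ico (0 : ℝ) 1)), G t < ⊤ :=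
    ae_lt_top (Measurable.tsum hmeas) hfin
  have hB : volume ({t | ¬ G t < ⊤} ∩ Set.Ico (0 : ℝ) 1) = 0 := by
    have := ae_iff.mp hae
    rwa [Measure.restrict_apply' measurableSet_Ico] at this
  refine measure_mono_null ?_ (null_fract_preimage hB)
  intro t ht hlt
  refine ht ?_
  have hne := ENNReal.summable_toReal (lt_top_iff_ne_top.mp hlt)
  simpa [pick, G, ENNReal.toReal_ofReal (norm_nonneg _)] using hne

universe u v

theorem exists_separable_quotient {𝕜 : Type v} [RCLike 𝕜] {X : Type u} [NormedAddCommGroup X]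
    [NormedSpace 𝕜 X] [CompleteSpace X] (hX : ¬ FiniteDimensional 𝕜 X) (D : Set X)
    (hD : Dense (Submodule.span 𝕜 D : Set X)) (κ : Cardinal.{u})
    (hκ : κ < Cardinal.lift.{u} covNull)
    (hsupp : ∀ f : StrongDual 𝕜 X, Cardinal.mk {d : X | d ∈ D ∧ f d ≠ 0} ≤ κ) :
    ∃ M : Submodule 𝕜 X, IsClosed (M : Set X) ∧ TopologicalSpace.SeparableSpace (X ⧸ M) ∧
      ¬ FiniteDimensional 𝕜 (X ⧸ M) := by
  choose v hv1 hv2 using fun n : ℕ => exists_block hX (16 ^ n)
  -- only few points of `D` see any of the countably many functionals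
  let A : Set X := ⋃ p : ULift.{u} (Σ n : ℕ, Fin (16 ^ n)),
    {d : X | d ∈ D ∧ v p.down.1 p.down.2 d ≠ 0}
  have hA : Cardinal.mk A < Cardinal.lift.{u} covNull := by
    refine (Cardinal.mk_iUnion_le _).trans_lt (Cardinal.mul_lt_of_lt ?_ ?_ ?_)
    · exact Cardinal.aleph0_le_lift.mpr aleph0_lt_covNull.le
    · exact Cardinal.mk_le_aleph0.trans_lt (Cardinal.aleph0_lt_lift.mpr aleph0_lt_covNull)
    · exact (ciSup_le' fun p => hsupp _).trans_lt hκ
  obtain ⟨t, ht⟩ := exists_notMem_of_lt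
    (fun x : A => {t : ℝ | ¬ Summable fun n => ‖pick v t n (x : X)‖})
    (fun x => null_bad v hv2 x) (by simpa using hA)
  refine exists_quotient (g := pick v t) (fun n => (hv1 n _).1) (fun n => (hv1 n _).2) hD ?_
  intro x hx
  induction hx using Submodule.span_induction with
  | mem y hy =>
    by_cases hyA : y ∈ A
    · exact not_not.mp (ht ⟨y, hyA⟩)
    · have h0 : ∀ n i, v n i y = 0 := fun n i => by
        by_contra hne
        exact hyA (Set.mem_iUnion.mpr ⟨⟨⟨n, i⟩⟩, hy, hne⟩)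
      simp [pick, h0]
  | zero => simp
  | add y z _ _ hy hz =>
    refine Summable.of_nonneg_of_le (fun n => norm_nonneg _) (fun n => ?_) (hy.add hz)
    rw [map_add]
    exact norm_add_le _ _
  | smul a y _ hy =>
    simpa [map_smul, norm_smul] using hy.mul_left ‖a‖

end Vale.Agent.P129

end
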